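import Vale.Agent.P038.LeadS.Defs
import Vale.Agent.P038.Defs

/-! Strict (G) for an arc-minimal counterexample, strong connectivity, and the final statement from
the contradiction `no_G` (P038, blocks G1, G2, G3). -/

namespace Vale.Agent.P038.H841S

open Finset Vale.Agent.P038 Vale.Agent.P038.LeadS

universe u

section G

variable {V : Type*} [Fintype V] [DecidableEq V]

/-- closed out-neighbourhood relation -/
def Rc (D : OGraph V) (a b : V) : Prop := a = b ∨ D.arc a b

theorem mem_N' {R : V → V → Prop} {X : Finset V} {z : V} : z ∈ N R X ↔ ∃ x ∈ X, R x z := by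
  classical
  simp [N]

theorem W_mono {w : V → ℝ} (hw : ∀ v, 0 ≤ w v) {S T : Finset V} (h : S ⊆ T) :
    W w S ≤ W w T :=
  Finset.sum_le_sum_of_subset_of_nonneg h fun v _ _ => hw v

theorem W_union {w : V → ℝ} {S T : Finset V} (h : Disjoint S T) :
    W w (S ∪ T) = W w S + W w T :=
  Finset.sum_union h

theorem W_union_le {w : V → ℝ} (hw : ∀ v, 0 ≤ w v) (S T : Finset V) :
    W w (S ∪ T) ≤ W w S + W w T := by
  have h : S ∪ T = S ∪ (T \ S) := by simp
  rw [h, W_union disjoint_sdiff]
  have := W_mono hw (S := T \ S) (T := T) sdiff_subset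
  linarith

/-- G1: strict (G) for an arc-minimal counterexample. -/
theorem strictG (D : OGraph V) (w : V → ℝ) (hw : ∀ v, 0 ≤ w v)
    (hCE : ∀ v, W w (N2 D v) < W w (N1 D v))
    (hmin : ∀ D' : OGraph V, (∀ a b, D'.arc a b → D.arc a b) →
      (∀ v, W w (N2 D' v) < W w (N1 D' v)) → ∀ a b, D.arc a b → D'.arc a b)
    (X : Finset V) (hX : (N (Rc D) X \ X).Nonempty) :
    W w (N (Rc D) (N (Rc D) X) \ N (Rc D) X) < W w (N (Rc D) X \ X) := by
  classical
  by_contra hcon
  push Not at hcon
  set L := N (Rc D) X \ X with hL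
  have hW0 : W w (∅ : Finset V) = 0 := by simp [W]
  obtain ⟨T, hT, hTmin⟩ := Finset.exists_min_image L.ssubsets
    (fun T => W w (N (Rc D) T \ X) - 2 * W w T)
    ⟨∅, by rw [mem_ssubsets]; exact Finset.empty_ssubset.2 hX⟩
  rw [mem_ssubsets] at hT
  have hTL : T ⊆ L := hT.subset
  have h1 : ∀ D' ⊆ L, W w (N (Rc D) T \ X) - 2 * W w T ≤
      W w (N (Rc D) (T ∪ D') \ X) - 2 * W w (T ∪ D') := by
    intro D' hD'
    by_cases hE : T ∪ D' = L
    · have h0 := hTmin ∅ (by rw [mem_ssubsets]; exact Finset.empty_ssubset.2 hX)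
      have hN0 : N (Rc D) (∅ : Finset V) \ X = ∅ := by
        ext z
        simp [mem_N']
      simp only [hN0, hW0] at h0
      rw [hE]
      have hsub : L ∪ (N (Rc D) (N (Rc D) X) \ N (Rc D) X) ⊆ N (Rc D) L \ X := by
        intro z hz
        rw [mem_union] at hz
        rw [mem_sdiff]
        rcases hz with hz | hz
        · exact ⟨mem_N'.2 ⟨z, hz, Or.inl rfl⟩, (mem_sdiff.1 hz).2⟩
        · rw [mem_sdiff] at hz
          obtain ⟨hz1, hz2⟩ := hz
          obtain ⟨x, hx, hxz⟩ := mem_N'.1 hz1
          have hxX : x ∉ X := fun h => hz2 (mem_N'.2 ⟨x, h, hxz⟩)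
          refine ⟨mem_N'.2 ⟨x, mem_sdiff.2 ⟨hx, hxX⟩, hxz⟩, ?_⟩
          exact fun h => hz2 (mem_N'.2 ⟨z, h, Or.inl rfl⟩)
      have hdis : Disjoint L (N (Rc D) (N (Rc D) X) \ N (Rc D) X) := by
        rw [Finset.disjoint_left]
        intro z hz hz'
        exact (mem_sdiff.1 hz').2 (mem_sdiff.1 hz).1
      have h2 := W_mono hw hsub
      rw [W_union hdis] at h2
      linarith
    · exact hTmin _ (by
        rw [mem_ssubsets]
        exact Finset.ssubset_iff_subset_ne.2 ⟨union_subset hTL hD', hE⟩)
  -- the smaller graph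
  let D' : OGraph V :=
    { arc := fun a b => D.arc a b ∧ (a ∈ X → b ∈ X ∨ b ∈ T)
      loopless := fun v h => D.loopless v h.1
      asymm := fun a b h h' => D.asymm a b h.1 h'.1 }
  have harc : ∀ a b, D'.arc a b ↔ D.arc a b ∧ (a ∈ X → b ∈ X ∨ b ∈ T) := fun a b => Iff.rfl
  have hCE' : ∀ v, W w (N2 D' v) < W w (N1 D' v) := by
    intro v
    by_cases hv : v ∈ X
    · set Dy := (N1 D v).filter (fun b => b ∉ X ∧ b ∉ T) with hDy
      set Ey := N (Rc D) Dy \ (N (Rc D) T ∪ X) with hEy
      have e1 : N1 D v = N1 D' v ∪ Dy := by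
        ext z
        simp only [mem_union, mem_N1, harc, hDy, mem_filter]
        tauto
      have d1 : Disjoint (N1 D' v) Dy := by
        rw [Finset.disjoint_left]
        intro z hz hz'
        rw [mem_N1, harc] at hz
        rw [hDy, mem_filter] at hz'
        tauto
      have w1 : W w (N1 D v) = W w (N1 D' v) + W w Dy := by
        conv_lhs => rw [e1]
        exact W_union d1
      have hTN : T ⊆ N (Rc D) T := fun z hz => mem_N'.2 ⟨z, hz, Or.inl rfl⟩
      have s2 : N2 D' v ∪ Ey ⊆ N2 D v ∪ Dy := by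
        intro z hz
        rw [mem_union] at hz
        rw [mem_union]
        rcases hz with hz | hz
        · rw [mem_N2] at hz
          obtain ⟨hzv, hna, c, hc1, hc2⟩ := hz
          rw [harc] at hna hc1 hc2
          by_cases hvz : D.arc v z
          · right
            rw [hDy, mem_filter, mem_N1]
            refine ⟨hvz, ?_⟩
            by_contra hh
            apply hna
            refine ⟨hvz, fun _ => ?_⟩
            by_contra hh'
            exact hh ⟨fun h => hh' (Or.inl h), fun h => hh' (Or.inr h)⟩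
          · left
            rw [mem_N2]
            exact ⟨hzv, hvz, c, hc1.1, hc2.1⟩
        · rw [hEy, mem_sdiff, mem_union] at hz
          obtain ⟨hz1, hz2⟩ := hz
          push Not at hz2
          obtain ⟨hz2, hz3⟩ := hz2
          obtain ⟨c, hc, hcz⟩ := mem_N'.1 hz1
          rcases hcz with rfl | hcz
          · exact Or.inr hc
          · rw [hDy, mem_filter, mem_N1] at hc
            by_cases hvz : D.arc v z
            · right
              rw [hDy, mem_filter, mem_N1]
              exact ⟨hvz, hz3, fun h => hz2 (hTN h)⟩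
            · left
              rw [mem_N2]
              exact ⟨fun h => hz3 (h ▸ hv), hvz, c, hc.1, hcz⟩
      have d2 : Disjoint (N2 D' v) Ey := by
        rw [Finset.disjoint_left]
        intro z hz hz'
        rw [hEy, mem_sdiff, mem_union] at hz'
        obtain ⟨_, hz2⟩ := hz'
        push Not at hz2
        obtain ⟨hz2, hz3⟩ := hz2
        rw [mem_N2] at hz
        obtain ⟨hzv, hna, c, hc1, hc2⟩ := hz
        rw [harc] at hc1 hc2
        by_cases hcX : c ∈ X
        · rcases hc2.2 hcX with h | h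
          · exact hz3 h
          · exact hz2 (hTN h)
        · rcases hc1.2 hv with h | h
          · exact hcX h
          · exact hz2 (mem_N'.2 ⟨c, h, Or.inr hc2.1⟩)
      have w2 := W_mono hw s2
      rw [W_union d2] at w2
      have w3 := W_union_le hw (N2 D v) Dy
      have hDL : Dy ⊆ L := by
        intro z hz
        rw [hDy, mem_filter, mem_N1] at hz
        rw [hL, mem_sdiff]
        exact ⟨mem_N'.2 ⟨v, hv, Or.inr hz.1⟩, hz.2.1⟩
      have h1D := h1 Dy hDL
      have e4 : N (Rc D) (T ∪ Dy) \ X = (N (Rc D) T \ X) ∪ Ey := by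
        ext z
        simp only [mem_sdiff, mem_union, mem_N', hEy]
        constructor
        · rintro ⟨⟨x, hx | hx, hxz⟩, hzX⟩
          · exact Or.inl ⟨⟨x, hx, hxz⟩, hzX⟩
          · by_cases hzT : ∃ x ∈ T, Rc D x z
            · exact Or.inl ⟨hzT, hzX⟩
            · exact Or.inr ⟨⟨x, hx, hxz⟩, fun h => h.elim hzT hzX⟩
        · rintro (⟨⟨x, hx, hxz⟩, hzX⟩ | ⟨⟨x, hx, hxz⟩, hz⟩)
          · exact ⟨⟨x, Or.inl hx, hxz⟩, hzX⟩
          · exact ⟨⟨x, Or.inr hx, hxz⟩, fun h => hz (Or.inr h)⟩
      have d4 : Disjoint (N (Rc D) T \ X) Ey := by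
        rw [Finset.disjoint_left]
        intro z hz hz'
        rw [hEy, mem_sdiff, mem_union] at hz'
        exact hz'.2 (Or.inl (mem_sdiff.1 hz).1)
      have d5 : Disjoint T Dy := by
        rw [Finset.disjoint_left]
        intro z hz hz'
        rw [hDy, mem_filter] at hz'
        exact hz'.2.2 hz
      rw [e4, W_union d4, W_union d5] at h1D
      have h5 := hCE v
      linarith
    · have e1 : N1 D' v = N1 D v := by
        ext z
        simp only [mem_N1, harc]
        tauto
      have s2 : N2 D' v ⊆ N2 D v := by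
        intro z hz
        rw [mem_N2] at hz ⊢
        obtain ⟨hzv, hna, c, hc1, hc2⟩ := hz
        rw [harc] at hna hc1 hc2
        exact ⟨hzv, fun h => hna ⟨h, fun h' => absurd h' hv⟩, c, hc1.1, hc2.1⟩
      rw [e1]
      exact lt_of_le_of_lt (W_mono hw s2) (hCE v)
  have hall := hmin D' (fun a b h => h.1) hCE'
  obtain ⟨z, hzL, hzT⟩ := Finset.exists_of_ssubset hT
  have hz := hzL
  rw [hL, mem_sdiff] at hz
  obtain ⟨x, hx, hxz⟩ := mem_N'.1 hz.1
  rcases hxz with rfl | hxz
  · exact hz.2 hx
  · rcases (hall x z hxz).2 hx with h | h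
    · exact hz.2 h
    · exact hzT h

end G

section Final

theorem W_one {V : Type*} [Fintype V] [DecidableEq V] (S : Finset V) :
    W (fun _ => (1 : ℝ)) S = (S.card : ℝ) := by
  simp [W]

/-- The induced graph on a set of vertices. -/
def ind {V : Type*} (D : OGraph V) (Y : Finset V) : OGraph {x // x ∈ Y} where
  arc a b := D.arc a.1 b.1
  loopless v := D.loopless v.1
  asymm a b := D.asymm a.1 b.1

/-- The contradiction to be supplied (`no_G`). -/
def NoG : Prop :=
  ∀ (V : Type u) [Fintype V] [DecidableEq V] [Nonempty V] (R : V → V → Prop),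
    (∀ a, R a a) → (∀ a b, R a b → R b a → a = b) →
    ∀ w : V → ℝ, (∀ a, 0 < w a) →
    (∀ (a : V) (X : Finset V), a ∈ X → (∀ z, R z a → z ≠ a → z ∉ N R X) →
      W w (N R (N R X) \ N R X) < W w (N R X \ X)) → False

open Classical in
/-- the arcs of a graph -/
noncomputable def arcs {V : Type*} [Fintype V] (D : OGraph V) : Finset (V × V) :=
  univ.filter fun q => D.arc q.1 q.2

/-- G2 (first half): no proper nonempty set closed under out-neighbours. -/
theorem closed_univ {V : Type u} [Fintype V] [DecidableEq V]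
    (IH : ∀ (V' : Type u) [Fintype V'] [Nonempty V'], Fintype.card V' < Fintype.card V →
      ∀ D : OGraph V', ∃ v, (N1 D v).card ≤ (N2 D v).card)
    (D : OGraph V) (hCE : ∀ v, (N2 D v).card < (N1 D v).card)
    (Y : Finset V) (hY : Y.Nonempty) (hcl : ∀ y ∈ Y, ∀ z, D.arc y z → z ∈ Y) : Y = univ := by
  classical
  by_contra hne
  obtain ⟨y0, hy0⟩ := hY
  haveI : Nonempty {x // x ∈ Y} := ⟨⟨y0, hy0⟩⟩
  have hcard : Fintype.card {x // x ∈ Y} < Fintype.card V := by
    rw [Fintype.card_coe]
    exact (Finset.card_lt_iff_ne_univ Y).2 hne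
  obtain ⟨v, hv⟩ := IH {x // x ∈ Y} hcard (ind D Y)
  have e1 : (N1 (ind D Y) v).map (Function.Embedding.subtype _) = N1 D v.1 := by
    ext z
    simp only [mem_map, mem_N1, Function.Embedding.coe_subtype]
    constructor
    · rintro ⟨a, ha, rfl⟩
      exact ha
    · intro h
      exact ⟨⟨z, hcl _ v.2 _ h⟩, h, rfl⟩
  have e2 : (N2 (ind D Y) v).map (Function.Embedding.subtype _) = N2 D v.1 := by
    ext z
    simp only [mem_map, mem_N2, Function.Embedding.coe_subtype]
    constructor
    · rintro ⟨a, ⟨h1, h2, c, h3, h4⟩, rfl⟩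
      exact ⟨fun h => h1 (Subtype.ext h), h2, c.1, h3, h4⟩
    · rintro ⟨h1, h2, c, h3, h4⟩
      have hc : c ∈ Y := hcl _ v.2 _ h3
      have hz : z ∈ Y := hcl _ hc _ h4
      exact ⟨⟨z, hz⟩, ⟨fun h => h1 (congrArg Subtype.val h), h2, ⟨c, hc⟩, h3, h4⟩, rfl⟩
  have h := hCE v.1
  rw [← e1, ← e2, card_map, card_map] at h
  omega

/-- G3: the final statement from the contradiction. -/
theorem seymour_of_noG (hno : NoG.{u}) : ∀ (V : Type u) [Fintype V] [Nonempty V] (D : OGraph V),
    ∃ v, (N1 D v).card ≤ (N2 D v).card := by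
  suffices H : ∀ n : ℕ, ∀ (V : Type u) [Fintype V] [Nonempty V], Fintype.card V = n →
      ∀ D : OGraph V, ∃ v, (N1 D v).card ≤ (N2 D v).card by
    intro V _ _ D
    exact H _ V rfl D
  intro n
  induction n using Nat.strong_induction_on with
  | _ n IHn =>
  intro V _ _ hn D0
  classical
  by_contra hcon
  push Not at hcon
  have IH : ∀ (V' : Type u) [Fintype V'] [Nonempty V'], Fintype.card V' < Fintype.card V →
      ∀ D : OGraph V', ∃ v, (N1 D v).card ≤ (N2 D v).card := by
    intro V' _ _ h D
    exact IHn _ (hn ▸ h) V' rfl D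
  -- the minimal number of arcs
  have hex : ∃ k : ℕ, ∃ D : OGraph V, (∀ v, (N2 D v).card < (N1 D v).card) ∧ (arcs D).card = k :=
    ⟨_, D0, hcon, rfl⟩
  obtain ⟨D, hCE, hk⟩ := Nat.find_spec hex
  have hmin : ∀ D' : OGraph V, (∀ a b, D'.arc a b → D.arc a b) →
      (∀ v, W (fun _ => (1 : ℝ)) (N2 D' v) < W (fun _ => (1 : ℝ)) (N1 D' v)) →
      ∀ a b, D.arc a b → D'.arc a b := by
    intro D' hsub hCE' a b hab
    have hCE'' : ∀ v, (N2 D' v).card < (N1 D' v).card := by
      intro v
      have := hCE' v
      rw [W_one, W_one] at this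
      exact_mod_cast this
    have hle : (arcs D).card ≤ (arcs D').card := by
      rw [hk]
      exact Nat.find_min' hex ⟨D', hCE'', rfl⟩
    have hs : arcs D' ⊆ arcs D := by
      intro q hq
      simp only [arcs, mem_filter, mem_univ, true_and] at hq ⊢
      exact hsub _ _ hq
    have heq := Finset.eq_of_subset_of_card_le hs hle
    have : (a, b) ∈ arcs D' := by
      rw [heq]
      simp only [arcs, mem_filter, mem_univ, true_and]
      exact hab
    simpa only [arcs, mem_filter, mem_univ, true_and] using this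
  refine hno V (Rc D) (fun a => Or.inl rfl) ?_ (fun _ => 1) (fun _ => one_pos) ?_
  · rintro a b (rfl | h) h'
    · rfl
    · rcases h' with h' | h'
      · exact h'.symm
      · exact absurd h' (D.asymm _ _ h)
  · intro a X haX hna
    apply strictG D _ (fun _ => zero_le_one) ?_ hmin X ?_
    · intro v
      rw [W_one, W_one]
      exact_mod_cast hCE v
    · by_contra hemp
      rw [Finset.not_nonempty_iff_eq_empty, Finset.sdiff_eq_empty_iff_subset] at hemp
      have hXu : X = univ := by
        apply closed_univ IH D hCE X ⟨a, haX⟩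
        intro y hy z hz
        exact hemp (mem_N'.2 ⟨y, hy, Or.inr hz⟩)
      have hin : ∀ z, ¬ D.arc z a := by
        intro z hz
        have hza : z ≠ a := fun h => D.loopless a (h ▸ hz)
        refine hna z (Or.inr hz) hza ?_
        exact mem_N'.2 ⟨z, by rw [hXu]; exact mem_univ z, Or.inl rfl⟩
      have hY : (univ.erase a : Finset V) = univ := by
        apply closed_univ IH D hCE
        · by_contra hE
          rw [Finset.not_nonempty_iff_eq_empty] at hE
          have h1 : N1 D a = ∅ := by
            rw [← Finset.subset_empty, ← hE]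
            intro z hz
            rw [mem_N1] at hz
            exact mem_erase.2 ⟨fun h => D.loopless a (h ▸ hz), mem_univ z⟩
          have := hCE a
          rw [h1] at this
          simp at this
        · intro y _ z hz
          exact mem_erase.2 ⟨fun h => hin y (h ▸ hz), mem_univ z⟩
      have : a ∈ (univ.erase a : Finset V) := by
        rw [hY]
        exact mem_univ a
      simp at this

end Final

end Vale.Agent.P038.H841S
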